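import Vale.Agent.P277.H884.MinF
import Vale.Agent.P277.H615.X.Iface

/-!
# P277, EXS: (E1) coverings adapted to a surface near a given point
-/

open scoped Manifold ContDiff Topology
open Vale.Agent.P272.K Vale.Agent.P285.H281.FD Set Filter Metric

noncomputable section

namespace Vale.Agent.P277.H371.X

open Vale.Agent.P277 Vale.Agent.P277.TX
open Vale.Agent.P277.H619 (dfr)
open Vale.Agent.P277.H60.X (zz lst zz_lst lst_zz dist_zz)

/-- (E1) -/
theorem stAdmP : H615.X.StAdmP := by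
  classical
  intro Y _ _ _ _ _ X hX O v hv hdim S hSan hSO x₀ hx₀ U₀ hU₀ hxU₀
  obtain ⟨Ω, g, u, hΩ, hgΩ, ⟨b, hbΩ, hgb0⟩, hu, hug, hSu⟩ := hx₀
  obtain ⟨N, Vc, ζ, hxV, hζ'⟩ := exists_isCoord X x₀
  obtain ⟨k, f, hf', hfS'⟩ := hSan x₀ (mem_univ x₀)
  have hev : ∀ᶠ y in 𝓝 x₀, y ∈ U₀ ∧ y ∈ Vc ∧ (∀ i, X.Hol (f i) y) ∧ (y ∈ S ↔ ∀ i, f i y = 0) :=
    (hU₀.eventually_mem hxU₀).and ((hζ'.isOpen.eventually_mem hxV).and
      ((eventually_all.2 fun i => hol_eventually (hf' i)).and hfS'))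
  obtain ⟨U, hU, hUo, hxU⟩ := _root_.eventually_nhds_iff.1 hev
  have hUU : U ⊆ U₀ := fun y hy => (hU y hy).1
  have hζ : IsCoord X U ζ := hζ'.mono hUo fun y hy => (hU y hy).2.1
  have hf : ∀ i, ∀ y ∈ U, X.Hol (f i) y := fun i y hy => (hU y hy).2.2.1 i
  have hfS : ∀ y ∈ U, (y ∈ S ↔ ∀ i, f i y = 0) := fun y hy => (hU y hy).2.2.2
  set p := g b with hp
  have hgb : HolAt X g b := hgΩ b hbΩ
  have hgU : p ∈ U := by rw [hgb0]; exact hxU
  have hub : u x₀ = b := by rw [← hgb0]; exact hug b hbΩ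
  have hgS : p ∈ S := by
    rw [hgb0]
    exact hSu.self_of_nhds.2 ⟨by rw [hub]; exact hbΩ, by rw [hub]; exact hgb0⟩
  -- the parametrisation is an immersion
  have hinj : Function.Injective (fderiv ℂ (fun q a => ζ a (g q)) b) := by
    choose F hF hFu using fun i => (hζ.iff x₀ hxU (fun y => u y i)).1 (hu i).self_of_nhds
    have h1 : AnalyticAt ℂ (fun q a => ζ a (g q)) b :=
      AnalyticAt.pi fun a => hgb.analyticAt (hζ.hol a _ hgU)
    have h2 : AnalyticAt ℂ (fun z i => F i z) (fun a => ζ a (g b)) := by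
      refine AnalyticAt.pi fun i => ?_
      show AnalyticAt ℂ (F i) (fun a => ζ a p)
      rw [hgb0]; exact hF i
    have h3 : (fun q => (fun z i => F i z) ((fun q a => ζ a (g q)) q)) =ᶠ[𝓝 b] fun q => q := by
      have e1 : ∀ᶠ q in 𝓝 b, ∀ i, u (g q) i = F i fun a => ζ a (g q) := by
        refine eventually_all.2 fun i => ?_
        have h4 : ContinuousAt g b := hgb.1
        have h5 : ∀ᶠ y in 𝓝 p, u y i = F i fun a => ζ a y := by rw [hgb0]; exact hFu i
        exact h4.eventually h5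
      filter_upwards [e1, hΩ.mem_nhds hbΩ] with q h4 h5
      funext i
      show F i (fun a => ζ a (g q)) = q i
      rw [← h4 i, hug q h5]
    have h4 : fderiv ℂ (fun q => (fun z i => F i z) ((fun q a => ζ a (g q)) q)) b =
        (fderiv ℂ (fun z i => F i z) (fun a => ζ a (g b))).comp
          (fderiv ℂ (fun q a => ζ a (g q)) b) :=
      fderiv_comp (g := fun z i => F i z) (f := fun q a => ζ a (g q)) b h2.differentiableAt
        h1.differentiableAt
    rw [h3.fderiv_eq] at h4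
    intro w w' hw
    have h5 : ∀ w, (fderiv ℂ (fun z i => F i z) (fun a => ζ a (g b)))
        ((fderiv ℂ (fun q a => ζ a (g q)) b) w) = w := by
      intro w
      have := congrArg (fun T : Cm 2 →L[ℂ] Cm 2 => T w) h4
      simp only [fderiv_fun_id, ContinuousLinearMap.comp_apply] at this
      exact this.symm
    rw [← h5 w, hw, h5 w']
  have hne : Nonempty X.pt := hdim.nonempty
  have hdense : Dense (v '' O) := by
    have h1 := dense_compl_of_dimLe (d := 2) (n := 4) (by norm_num) hX.dense hdim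
    rwa [compl_compl] at h1
  have hU4 : DimLe X (3 + 1) U := ((dimLe_four hv).union (hdim.le (by norm_num : 2 ≤ 4))).mono
    fun x _ => em (x ∈ v '' O)
  obtain ⟨I, hI, D, hD, hDd⟩ := exists_denseFamily hζ.isOpen hdense
  obtain ⟨i₀, hi₀⟩ := hDd U hζ.isOpen Subset.rfl ⟨p, hgU⟩
  set e : I → Chart 4 Y := fun i => chartAt (Cm 4) (D i) with he
  have heD : ∀ i, At (e i) (D i) := fun i => ⟨chart_mem_atlas _ _, mem_chart_source _ _⟩
  have hfD : ∀ i, ∃ j, f j (v (D i)) ≠ 0 := by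
    intro i
    by_contra hcon
    push Not at hcon
    exact hSO ((hfS _ (hD i).2).2 hcon) ⟨D i, (hD i).1, rfl⟩
  have hk : k ≠ 0 := by
    rintro rfl
    obtain ⟨j, -⟩ := hfD i₀
    exact j.elim0
  obtain ⟨M, F, hM, hF, hFf, hFs⟩ := exists_family hζ hf p hk
  -- the coordinates, centered at `p`
  set Z : Fin N → X.pt → ℂ := fun a y => ζ a y - ζ a p with hZ
  have hZh : ∀ a, ∀ y ∈ U, X.Hol (Z a) y := fun a y hy => hol_sub (hζ.hol a y hy) (hol_const _ _)
  have hZs : ∀ i, Submodule.span ℂ (range fun a => dfr v (e i) (D i) (Z a)) = ⊤ := by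
    intro i
    rw [eq_top_iff]
    rintro ℓ -
    obtain ⟨w, rfl⟩ := H29.exists_dfr_eq hv (hD i).1 (heD i) hζ (hD i).2 ℓ
    refine Submodule.sum_mem _ fun a _ => Submodule.smul_mem _ _ ?_
    rw [← H619.dfr_sub_const (ζ a p)]
    exact Submodule.subset_span ⟨a, rfl⟩
  have hFs' : ∀ i, Submodule.span ℂ (range fun m => dfr v (e i) (D i) (F m)) = ⊤ := fun i =>
    hFs Y O v hv (D i) (hD i).1 (e i) (heD i) (hD i).2 (hfD i)
  have hN : N ≠ 0 := by
    rintro rfl
    have h1 := span_ne_top_of_lt (E := Cm 4 →L[ℂ] ℂ) (k := 0)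
      (fun a => dfr v (e i₀) (D i₀) (Z a)) (by rw [finrank_dual]; norm_num)
    exact h1 (hZs i₀)
  have hZp : ∀ x ∈ U, x ≠ p → ∃ a, Z a x ≠ 0 := by
    intro x hx hxp
    by_contra hcon
    push Not at hcon
    exact hxp (hζ.injOn hx hgU (funext fun a => sub_eq_zero.1 (hcon a)))
  -- the derivative of the parametrisation
  set A : Fin N → (Cm 2 →L[ℂ] ℂ) := fun a => (ContinuousLinearMap.proj (R := ℂ)
    (φ := fun _ : Fin N => ℂ) a).comp (fderiv ℂ (fun q a => ζ a (g q)) b) with hA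
  have hAs : Submodule.span ℂ (range A) = ⊤ := span_components hinj
  have hlin : ∀ i, ∀ (w : Fin N → ℂ), dfr v (e i) (D i) (fun x => ∑ a, w a * Z a x) =
      Fintype.linearCombination ℂ (fun a => dfr v (e i) (D i) (Z a)) w := by
    intro i w
    rw [H619.dfr_sum hv (hD i).1 (heD i) w (fun a => hZh a _ (hD i).2),
      Fintype.linearCombination_apply]
  have hlinF : ∀ i, ∀ (w : Fin M → ℂ), dfr v (e i) (D i) (fun x => ∑ a, w a * F a x) =
      Fintype.linearCombination ℂ (fun a => dfr v (e i) (D i) (F a)) w := by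
    intro i w
    rw [H619.dfr_sum hv (hD i).1 (heD i) w (fun a => hF a _ (hD i).2),
      Fintype.linearCombination_apply]
  have hSU2 : DimLe X (1 + 1) (S ∩ U) := (hdim.mono hSO).mono inter_subset_left
  -- the first coordinate
  obtain ⟨w₁, hw11, hw12, hw13⟩ := choose_step (X := X) hζ.isOpen hN hZh (T₁ := U) (T₂ := S ∩ U)
    Subset.rfl hU4 inter_subset_right hSU2 (p := p) hZp (fun x hx => hZp x hx.2) (ι := Option I)
    (fun o => match o with
      | none => (⊥ : Submodule ℂ (Cm 2 →L[ℂ] ℂ)).comap (Fintype.linearCombination ℂ A)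
      | some i => (⊥ : Submodule ℂ (Cm 4 →L[ℂ] ℂ)).comap
          (Fintype.linearCombination ℂ fun a => dfr v (e i) (D i) (Z a)))
    (by
      have hbot : ∀ n : ℕ, n ≠ 0 → (⊥ : Submodule ℂ (Cm n →L[ℂ] ℂ)) ≠ ⊤ := by
        intro n hn h
        have h1 : Module.finrank ℂ (⊥ : Submodule ℂ (Cm n →L[ℂ] ℂ)) = n := by
          rw [h, finrank_top, finrank_dual]
        rw [finrank_bot] at h1
        exact hn h1.symm
      rintro (_ | i)
      · exact H619.comap_ne_top hAs (hbot 2 (by norm_num))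
      · exact H619.comap_ne_top (hZs i) (hbot 4 (by norm_num)))
  set u₁ : X.pt → ℂ := fun x => ∑ a, w₁ a * Z a x with hu₁
  have hA1 : Fintype.linearCombination ℂ A w₁ ≠ 0 := hw13 none
  have hD1 : ∀ i, dfr v (e i) (D i) u₁ ≠ 0 := fun i => by
    rw [hlin i w₁]
    exact hw13 (some i)
  set A₁ := Fintype.linearCombination ℂ A w₁ with hA₁
  -- the second coordinate
  obtain ⟨w₂, hw21, hw22, hw23⟩ := choose_step (X := X) hζ.isOpen hN hZh
    (T₁ := {x | x ∈ U ∧ u₁ x = 0}) (T₂ := {x | x ∈ S ∩ U ∧ u₁ x = 0}) (d₁ := 2) (d₂ := 0)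
    (fun x hx => hx.1) hw11 (fun x hx => hx.1.2) hw12 (p := p) (fun x hx => hZp x hx.1)
    (fun x hx => hZp x hx.1.2) (ι := Option I)
    (fun o => match o with
      | none => (Submodule.span ℂ (range ![A₁])).comap (Fintype.linearCombination ℂ A)
      | some i => (Submodule.span ℂ (range ![dfr v (e i) (D i) u₁])).comap
          (Fintype.linearCombination ℂ fun a => dfr v (e i) (D i) (Z a)))
    (by
      rintro (_ | i)
      · exact H619.comap_ne_top hAs (span_ne_top_of_lt _ (by rw [finrank_dual]; norm_num))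
      · exact H619.comap_ne_top (hZs i) (span_ne_top_of_lt _ (by rw [finrank_dual]; norm_num)))
  set u₂ : X.pt → ℂ := fun x => ∑ a, w₂ a * Z a x with hu₂
  set A₂ := Fintype.linearCombination ℂ A w₂ with hA₂
  have hA2 : A₂ ∉ Submodule.span ℂ (range ![A₁]) := hw23 none
  have hD2 : ∀ i, dfr v (e i) (D i) u₂ ∉ Submodule.span ℂ (range ![dfr v (e i) (D i) u₁]) :=
    fun i => by
      rw [hlin i w₂]
      exact hw23 (some i)
  -- the third coordinate
  have hT2 : DimLe X (1 + 1) {x | (x ∈ {x | x ∈ U ∧ u₁ x = 0} ∧ u₂ x = 0) ∧ x ∉ S} :=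
    hw21.mono fun x hx => hx.1
  have hFne : ∀ x ∈ {x | (x ∈ {x | x ∈ U ∧ u₁ x = 0} ∧ u₂ x = 0) ∧ x ∉ S}, x ≠ p →
      ∃ m, F m x ≠ 0 := by
    rintro x ⟨⟨⟨hxU, -⟩, -⟩, hxS⟩ -
    by_contra hcon
    push Not at hcon
    exact hxS ((hfS x hxU).2 ((hFf x).2 hcon))
  obtain ⟨w₃, hw31, -, hw33⟩ := choose_step (X := X) hζ.isOpen hM hF
    (fun x hx => hx.1.1.1) hT2 (fun x hx => hx.1.1.1) hT2 (p := p) hFne hFne (ι := I)
    (fun i => (Submodule.span ℂ (range ![dfr v (e i) (D i) u₂, dfr v (e i) (D i) u₁])).comap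
          (Fintype.linearCombination ℂ fun a => dfr v (e i) (D i) (F a)))
    (fun i => H619.comap_ne_top (hFs' i) (span_ne_top_of_lt _ (by rw [finrank_dual]; norm_num)))
  set x₃ : X.pt → ℂ := fun x => ∑ a, w₃ a * F a x with hx₃
  have hD3 : ∀ i, dfr v (e i) (D i) x₃ ∉
      Submodule.span ℂ (range ![dfr v (e i) (D i) u₂, dfr v (e i) (D i) u₁]) := fun i => by
    rw [hlinF i w₃]
    exact hw33 i
  obtain ⟨w₄, hw41, -, hw43⟩ := choose_step (X := X) hζ.isOpen hM hF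
    (d₁ := 0) (d₂ := 0) (fun x hx => hx.1.1.1.1) hw31 (fun x hx => hx.1.1.1.1) hw31 (p := p)
    (fun x hx => hFne x hx.1) (fun x hx => hFne x hx.1) (ι := I)
    (fun i => (Submodule.span ℂ (range ![dfr v (e i) (D i) x₃, dfr v (e i) (D i) u₂,
      dfr v (e i) (D i) u₁])).comap
          (Fintype.linearCombination ℂ fun a => dfr v (e i) (D i) (F a)))
    (fun i => H619.comap_ne_top (hFs' i) (span_ne_top_of_lt _ (by rw [finrank_dual]; norm_num)))
  set x₄ : X.pt → ℂ := fun x => ∑ a, w₄ a * F a x with hx₄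
  have hD4 : ∀ i, dfr v (e i) (D i) x₄ ∉ Submodule.span ℂ (range ![dfr v (e i) (D i) x₃,
      dfr v (e i) (D i) u₂, dfr v (e i) (D i) u₁]) := fun i => by
    rw [hlinF i w₄]
    exact hw43 i
  -- the map
  set G : X.pt → Cm 4 := fun x => ![x₄ x, x₃ x, u₂ x, u₁ x] with hG
  have hlinh : ∀ (w : Fin N → ℂ), ∀ y ∈ U, X.Hol (fun x => ∑ a, w a * Z a x) y := fun w y hy =>
    hol_sum _ fun a _ => hol_mul (hol_const _ _) (hZh a y hy)
  have hlinFh : ∀ (w : Fin M → ℂ), ∀ y ∈ U, X.Hol (fun x => ∑ a, w a * F a x) y := fun w y hy =>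
    hol_sum _ fun a _ => hol_mul (hol_const _ _) (hF a y hy)
  have hGh : ∀ x ∈ U, ∀ i, X.Hol (fun y => G y i) x := by
    intro x hx i
    fin_cases i
    · exact hlinFh w₄ x hx
    · exact hlinFh w₃ x hx
    · exact hlinh w₂ x hx
    · exact hlinh w₁ x hx
  have hFS : ∀ x ∈ U, x ∈ S → ∀ m, F m x = 0 := fun x hx hxS => (hFf x).1 ((hfS x hx).1 hxS)
  have hGS : ∀ x ∈ U, x ∈ S → G x 0 = 0 ∧ G x 1 = 0 := by
    intro x hx hxS
    have h1 := hFS x hx hxS
    constructor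
    · show ∑ a, w₄ a * F a x = 0
      exact Finset.sum_eq_zero fun a _ => by rw [h1 a, mul_zero]
    · show ∑ a, w₃ a * F a x = 0
      exact Finset.sum_eq_zero fun a _ => by rw [h1 a, mul_zero]
  have hZ0 : ∀ w : Fin N → ℂ, ∑ a, w a * Z a p = 0 := fun w =>
    Finset.sum_eq_zero fun a _ => by simp [hZ]
  have hGp : G p = 0 := by
    ext i
    fin_cases i
    · exact (hGS p hgU hgS).1
    · exact (hGS p hgU hgS).2
    · exact hZ0 w₂
    · exact hZ0 w₁
  have hnd : ∀ W : Set X.pt, IsOpen W → W ⊆ U → W.Nonempty → ∃ y ∈ O, v y ∈ W ∧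
      ∀ e : Chart 4 Y, At e y → Jac v (fun i x => G x i) e (e y) ≠ 0 := by
    intro W hW hWU hWn
    obtain ⟨i, hi⟩ := hDd W hW hWU hWn
    refine ⟨D i, (hD i).1, hi, fun e' he' => ?_⟩
    rw [← Jac_ne_zero_iff hv (hD i).1 (heD i) he' fun j => hGh _ (hD i).2 j]
    refine H29.jac_ne_zero v _ (e i) (D i) ?_
    have e2 : (fun j => dfr v (e i) (D i) ((fun j x => G x j : Fin 4 → X.pt → ℂ) j)) =
        Fin.cons (dfr v (e i) (D i) x₄) (Fin.cons (dfr v (e i) (D i) x₃)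
          (Fin.cons (dfr v (e i) (D i) u₂) ![dfr v (e i) (D i) u₁])) := by
      ext1 j
      fin_cases j <;> rfl
    rw [e2, linearIndependent_finCons]
    refine ⟨?_, hD4 i⟩
    rw [linearIndependent_finCons]
    refine ⟨?_, hD3 i⟩
    rw [linearIndependent_finCons]
    refine ⟨?_, hD2 i⟩
    rw [linearIndependent_unique_iff]
    exact hD1 i
  have hcount : {x | x ∈ U ∧ G x = G p}.Countable := by
    rw [hGp]
    refine (hw22.countable.union hw41.countable).mono ?_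
    rintro x ⟨hxU, hx⟩
    have h0 : x₄ x = 0 := congrFun hx 0
    have h1 : x₃ x = 0 := congrFun hx 1
    have h2 : u₂ x = 0 := congrFun hx 2
    have h3 : u₁ x = 0 := congrFun hx 3
    by_cases hxS : x ∈ S
    · exact Or.inl ⟨⟨⟨hxS, hxU⟩, h3⟩, h2⟩
    · exact Or.inr ⟨⟨⟨⟨⟨hxU, h3⟩, h2⟩, hxS⟩, h1⟩, h0⟩
  -- the surface covers a neighbourhood in the plane
  let H : Cm 2 → Cm 2 := fun q => ![u₂ (g q), u₁ (g q)]
  have hζg : AnalyticAt ℂ (fun q a => ζ a (g q)) b :=
    AnalyticAt.pi fun a => hgb.analyticAt (hζ.hol a _ hgU)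
  have hZd : ∀ w : Fin N → ℂ, HasFDerivAt (fun q => ∑ a, w a * Z a (g q))
      (Fintype.linearCombination ℂ A w) b := by
    intro w
    rw [Fintype.linearCombination_apply]
    refine HasFDerivAt.fun_sum fun a _ => ?_
    have h1 : HasFDerivAt (fun q => ζ a (g q)) (A a) b :=
      (ContinuousLinearMap.proj (R := ℂ) (φ := fun _ : Fin N => ℂ) a).hasFDerivAt.comp b
        hζg.differentiableAt.hasFDerivAt
    exact (h1.sub_const (ζ a p)).const_mul (w a)
  have hHan : AnalyticAt ℂ H b := by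
    refine AnalyticAt.pi fun i => ?_
    fin_cases i
    · exact hgb.analyticAt (hlinh w₂ _ hgU)
    · exact hgb.analyticAt (hlinh w₁ _ hgU)
  have hHd : HasFDerivAt H (ContinuousLinearMap.pi ![A₂, A₁]) b := by
    refine hasFDerivAt_pi'.2 fun i => ?_
    fin_cases i
    · exact hZd w₂
    · exact hZd w₁
  have hHinj : Function.Injective (fderiv ℂ H b) := by
    rw [hHd.fderiv, injective_iff_map_eq_zero]
    intro z hz
    refine injective_pair (A := A₂) (B := A₁) ?_ (congrFun hz 0) (congrFun hz 1)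
    have e3 : (![A₂, A₁] : Fin 2 → (Cm 2 →L[ℂ] ℂ)) = Fin.cons A₂ ![A₁] := rfl
    rw [e3, linearIndependent_finCons]
    refine ⟨?_, hA2⟩
    rw [linearIndependent_unique_iff]
    exact hA1
  obtain ⟨E, hE, hbE, -, hEs⟩ := H73.exists_localInv hHan hHinj
  have hHb : H b = 0 := by
    ext i
    fin_cases i
    · exact hZ0 w₂
    · exact hZ0 w₁
  -- the neighbourhood
  have hNb : {y | u y ∈ E.source ∧ u y ∈ Ω ∧ (y ∈ S ↔ (u y ∈ Ω ∧ g (u y) = y))} ∈ 𝓝 p := by
    have h1 : ContinuousAt u x₀ := continuousAt_pi.2 fun i => hol_continuousAt (hu i).self_of_nhds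
    have h2 : 𝓝 p = 𝓝 x₀ := by rw [hgb0]
    rw [h2]
    have h3 : ∀ᶠ y in 𝓝 x₀, u y ∈ E.source ∩ Ω :=
      h1.eventually ((E.open_source.inter hΩ).mem_nhds (by rw [hub]; exact ⟨hbE, hbΩ⟩))
    filter_upwards [h3, hSu] with y h4 h5 using ⟨h4.1, h4.2, h5⟩
  obtain ⟨V, r, d, lam, θ, hc, hpV, hVU, -⟩ := H335.stCov Y X hX O v hv hdim G p U hζ.isOpen hgU hGh
    hnd hcount _ hNb
  rw [hGp] at hc
  -- the new parametrisation
  set g' : Cm 2 → X.pt := fun q => g (E.symm q) with hg'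
  have h0t : (0 : Cm 2) ∈ E.target := by
    rw [← hHb, ← hE]; exact E.map_source hbE
  have hE0 : E.symm 0 = b := by
    rw [← hHb, ← hE]; exact E.left_inv hbE
  have hQ : ∀ᶠ q in 𝓝 (0 : Cm 2), q ∈ E.target ∧ E.symm q ∈ Ω ∧ g' q ∈ V := by
    have h1 : ContinuousAt E.symm 0 := E.continuousAt_symm h0t
    have h2 : ContinuousAt g' 0 := by
      refine ContinuousAt.comp (g := g) ?_ h1
      rw [hE0]; exact hgb.1
    refine (E.open_target.eventually_mem h0t).and ((h1.eventually (hΩ.mem_nhds ?_)).and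
      (h2.eventually (hc.isOpen.mem_nhds ?_)))
    · rw [hE0]; exact hbΩ
    · show g (E.symm 0) ∈ V
      rw [hE0]; exact hpV
  obtain ⟨ρ, hρ, hρb⟩ := Metric.eventually_nhds_iff_ball.1 hQ
  have hr := hc.pos
  have hRr : ball (0 : Cm 4) (min r ρ) ⊆ ball 0 r := ball_subset_ball (min_le_left _ _)
  have hres' := H335.stCovRes X V G 0 r d lam θ hc 0 (min r ρ) (lt_min hr hρ) hRr
  have hpar : ∀ q ∈ ball (0 : Cm 2) (min r ρ), HolAt X g' q ∧ g' q ∈ S ∧ g' q ∈ V ∧
      G (g' q) = zz q := by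
    intro q hq
    obtain ⟨h1, h2, h3⟩ := hρb q (ball_subset_ball (min_le_right _ _) hq)
    have h4 : g' q ∈ S := by
      have h5 := ((hVU h3).1.2.2)
      refine h5.2 ?_
      show u (g (E.symm q)) ∈ Ω ∧ g (u (g (E.symm q))) = g (E.symm q)
      rw [hug _ h2]
      exact ⟨h2, rfl⟩
    refine ⟨HolAt.comp (g := g) (γ := fun q => E.symm q) (hgΩ _ h2) (hEs q h1), h4, h3, ?_⟩
    have h5 := hGS _ (hVU h3).2 h4
    have h6 : H (E.symm q) = q := by
      have := E.right_inv h1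
      rwa [hE] at this
    ext i
    fin_cases i
    · exact h5.1
    · exact h5.2
    · exact congrFun h6 0
    · exact congrFun h6 1
  refine ⟨{x | x ∈ V ∧ G x ∈ ball 0 (min r ρ)}, G, min r ρ, d, lam, θ, N, ζ, g', ⟨hres',
    hζ.mono hres'.isOpen fun x hx => (hVU hx.1).2, fun x hx hxS => ?_, fun q hq => ?_⟩, ?_,
    fun x hx => hUU (hVU hx.1).2⟩
  · obtain ⟨h1, h2⟩ := hGS x (hVU hx.1).2 hxS
    refine ⟨h1, h2, ?_⟩
    obtain ⟨h3, h4, h5⟩ := (hVU hx.1).1
    have h6 := (h5.1 hxS).2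
    have h7 : lst (G x) = H (u x) := by
      have h8 : H (u x) = ![u₂ x, u₁ x] := by
        show ![u₂ (g (u x)), u₁ (g (u x))] = _
        rw [h6]
      rw [h8]
      rfl
    show g (E.symm (lst (G x))) = x
    rw [h7, ← hE, E.left_inv h3, h6]
  · obtain ⟨h1, h2, h3, h4⟩ := hpar q hq
    refine ⟨h1, h2, ⟨h3, ?_⟩, h4⟩
    rw [h4]
    have h5 : zz (0 : Cm 2) = 0 := by
      ext i; fin_cases i <;> rfl
    rw [mem_ball, ← h5, dist_zz]
    exact hq
  · refine ⟨by rw [← hgb0]; exact hpV, ?_⟩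
    rw [← hgb0]
    have h5 : G (g b) = 0 := hGp
    rw [h5]
    exact mem_ball_self (lt_min hr hρ)

end Vale.Agent.P277.H371.X
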