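import Vale.Agent.P277.H371.X.Wt
import Vale.Agent.P277.H884.PL4
import Vale.Agent.P277.H60.X.Good

/-!
# P277, EXS: parametrisation of all points of a branched covering over a map from `ℂ³`
-/

open Set Filter Metric Topology Polynomial
open Vale.Agent.P298.H983 Vale.Agent.P272.K
open Vale.Agent.P277.H762 (Cv cv_of_local)
open Vale.Agent.P277.H884.PL Vale.Agent.P277.H884

noncomputable section

namespace Vale.Agent.P277.H371.X

open Vale.Agent.P277 Vale.Agent.P277.TX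
open Vale.Agent.P277.H60.X (zx)

/-- coordinates on `ℂ³ = ℂ² × ℂ` -/
def cv3 (q : Cm 2 × ℂ) : Cm 3 := ![q.2, q.1 0, q.1 1]

theorem differentiable_cv3 : Differentiable ℂ cv3 := by
  refine differentiable_pi.2 fun i => ?_
  fin_cases i <;> simp only [cv3] <;> simp <;> fun_prop

theorem cv3_tl (w : Cm 3) (s : ℂ) : cv3 (tl w, s) = ![s, w 1, w 2] := by
  funext i; fin_cases i <;> rfl

theorem cv3_tl' (w : Cm 3) : cv3 (tl w, w 0) = w := by
  funext i; fin_cases i <;> rfl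

theorem tl_cv3 (q : Cm 2 × ℂ) : tl (cv3 q) = q.1 := by
  funext i; fin_cases i <;> rfl

theorem tl_zx (p : Cm 2) : tl (zx p) = p := by
  funext i; fin_cases i <;> rfl

theorem mem_ball_iff {w₀ w : Cm 3} (h0 : w₀ 0 = 0) {r : ℝ} (hr : 0 < r) :
    w ∈ ball w₀ r ↔ ‖w 0‖ < r ∧ tl w ∈ ball (tl w₀) r := by
  have h1 : w₀ = ![0, w₀ 1, w₀ 2] := by
    funext i; fin_cases i
    · exact h0
    · rfl
    · rfl
  have h2 : tl w₀ = ![w₀ 1, w₀ 2] := rfl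
  rw [h2]
  conv_lhs => rw [h1]
  exact mem_ball3 hr

/-- families with simple roots: the roots are distinct -/
theorem inj_of_simple {k : ℕ} {R : ℂ[X]} {α : Fin k → ℂ} (hR : R = ∏ i, (X - C (α i)))
    (hs : ∀ z, R.eval z = 0 → (derivative R).eval z ≠ 0) : Function.Injective α := by
  classical
  intro i j hij
  by_contra hne
  have h1 : R = (X - C (α i)) * ∏ l ∈ Finset.univ.erase i, (X - C (α l)) := by
    rw [hR]
    exact (Finset.mul_prod_erase Finset.univ (fun l => (X - C (α l) : ℂ[X]))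
      (Finset.mem_univ i)).symm
  have h2 : (∏ l ∈ Finset.univ.erase i, (X - C (α l)) : ℂ[X]).eval (α i) = 0 := by
    rw [eval_prod]
    exact Finset.prod_eq_zero (Finset.mem_erase.2 ⟨Ne.symm hne, Finset.mem_univ j⟩) (by simp [hij])
  refine hs (α i) (by rw [h1, eval_mul]; simp) ?_
  rw [h1, derivative_mul, eval_add, eval_mul, eval_mul, h2]
  simp

variable {XX : CSp} {V : Set XX.pt} {G : XX.pt → Cm 4} {c : Cm 4} {r : ℝ} {d : ℕ}
  {lam : XX.pt → ℂ} {θ : Cm 4 → ℂ}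

/-- All the points of `V` over `b` are parametrised near `w₀`. -/
def LiftFib (XX : CSp) (V : Set XX.pt) (G : XX.pt → Cm 4) (b : Cm 3 → Cm 4) (w₀ : Cm 3) : Prop :=
  ∃ (e : ℕ) (ρ : ℝ) (s : Fin e → ℕ) (Γ : Fin e → Cm 3 → XX.pt), 0 < ρ ∧ (∀ j, 1 ≤ s j) ∧
    (∀ j, ∀ w ∈ ball w₀ ρ, HolAt XX (Γ j) w ∧ Γ j w ∈ V ∧
      G (Γ j w) = b ![w 0 ^ s j, w 1, w 2]) ∧
    ∀ w₁ ∈ ball w₀ ρ, w₁ 0 = 0 → ∀ ε > 0, ∀ᶠ w in 𝓝 w₁, w 0 ≠ 0 → ∀ x ∈ V, G x = b w →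
      ∃ j, ∃ u ∈ ball w₁ ε, Γ j u = x ∧ ![u 0 ^ s j, u 1, u 2] = w

/-- the fibres have at most `d` points -/
theorem card_fib_le (hc : IsCov XX V G c r d lam θ) {z : Cm 4} (hz : z ∈ ball c r)
    (F : Finset XX.pt) (hF : ∀ x ∈ F, x ∈ V ∧ G x = z) : F.card ≤ d := by
  classical
  obtain ⟨m, p, μ, hpi, hp, hμ, hsum, -⟩ := exists_wt hc hz
  have h1 : F ⊆ Finset.univ.image p := fun x hx => by
    obtain ⟨k, hk⟩ := (hp x).2 (hF x hx)
    exact Finset.mem_image.2 ⟨k, Finset.mem_univ _, hk⟩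
  have h2 : m ≤ d := by
    calc m = ∑ _k : Fin m, 1 := by simp
      _ ≤ ∑ k, μ k := Finset.sum_le_sum fun k _ => hμ k
      _ = d := hsum
  exact ((Finset.card_le_card h1).trans Finset.card_image_le).trans (by simpa using h2)

/-- a function which separates the fibres as well as possible -/
theorem exists_max_sep (hc : IsCov XX V G c r d lam θ) {nζ : ℕ} {ζ : Fin nζ → XX.pt → ℂ}
    (hζ : IsCoord XX V ζ) {B : Set (Cm 4)} (hB : B ⊆ ball c r) (hBn : B.Nonempty) :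
    ∃ (e : ℕ) (h : XX.pt → ℂ) (z : Cm 4) (x : Fin e → XX.pt), (∀ x ∈ V, XX.Hol h x) ∧ z ∈ B ∧
      (∀ k, x k ∈ V ∧ G (x k) = z) ∧ (Function.Injective fun k => h (x k)) ∧
      ∀ z ∈ B, ∀ F : Finset XX.pt, (∀ x ∈ F, x ∈ V ∧ G x = z) → F.card ≤ e := by
  classical
  let Q : ℕ → Prop := fun m => ∃ z ∈ B, ∃ F : Finset XX.pt, (∀ x ∈ F, x ∈ V ∧ G x = z) ∧ F.card = m
  have hQ0 : Q 0 := by
    obtain ⟨z, hz⟩ := hBn
    exact ⟨z, hz, ∅, by simp, rfl⟩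
  have hQd : ∀ m, Q m → m ≤ d := by
    rintro m ⟨z, hz, F, hF, rfl⟩
    exact card_fib_le hc (hB hz) F hF
  have hspec : Q (Nat.findGreatest Q d) := Nat.findGreatest_spec (P := Q) (Nat.zero_le d) hQ0
  obtain ⟨z, hz, F, hF, hFc⟩ := hspec
  set e := Nat.findGreatest Q d with he
  obtain ⟨x, hxF⟩ : ∃ x : Fin e → XX.pt, Function.Injective x ∧ ∀ k, x k ∈ F := by
    have e1 : Fin e ≃ F := (finCongr hFc.symm).trans F.equivFin.symm
    exact ⟨fun k => (e1 k).1, fun i j hij => e1.injective (Subtype.ext hij), fun k => (e1 k).2⟩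
  obtain ⟨w, hw⟩ := H335.exists_sep hζ x hxF.1 fun k => (hF _ (hxF.2 k)).1
  refine ⟨e, fun y => ∑ a, w a * ζ a y, z, x, fun y hy => ?_, hz, fun k => hF _ (hxF.2 k), hw,
    fun z' hz' F' hF' => ?_⟩
  · exact hol_sum _ fun a _ => hol_mul (hol_const _ _) (hζ.hol a y hy)
  · exact Nat.le_findGreatest (P := Q) (card_fib_le hc (hB hz') F' hF') ⟨z', hz', F', hF', rfl⟩

/-- the reduced polynomial of a separating function -/
theorem exists_sepPoly (hc : IsCov XX V G c r d lam θ) {nζ : ℕ} {ζ : Fin nζ → XX.pt → ℂ}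
    (hζ : IsCoord XX V ζ) {b : Cm 3 → Cm 4} {p₀ : Cm 2} {R : ℝ} (hR : 0 < R)
    (hb : ∀ w ∈ ball (zx p₀) R, AnalyticAt ℂ b w) (hbr : ∀ w ∈ ball (zx p₀) R, b w ∈ ball c r) :
    ∃ (k : ℕ) (h : XX.pt → ℂ) (D : Cm 2 × ℂ → ℂ) (Rp : Cm 2 × ℂ → ℂ[X]),
      (∀ x ∈ V, XX.Hol h x) ∧ DifferentiableOn ℂ D (ball p₀ R ×ˢ ball 0 R) ∧
      (∃ q ∈ ball p₀ R ×ˢ ball (0 : ℂ) R, D q ≠ 0) ∧ PFam (ball p₀ R ×ˢ ball 0 R) k Rp ∧
      ∀ q ∈ ball p₀ R ×ˢ ball (0 : ℂ) R, D q ≠ 0 →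
        (∀ z, (Rp q).eval z = 0 → (derivative (Rp q)).eval z ≠ 0) ∧
        (∀ z, (Rp q).eval z = 0 ↔ ∃ x ∈ V, G x = b (cv3 q) ∧ h x = z) ∧
        InjOn h {x | x ∈ V ∧ G x = b (cv3 q)} := by
  classical
  have hcv : ∀ q ∈ ball p₀ R ×ˢ ball (0 : ℂ) R, cv3 q ∈ ball (zx p₀) R := by
    rintro ⟨p, s⟩ ⟨hp, hs⟩
    rw [mem_ball_iff rfl hR]
    refine ⟨by simpa [cv3] using hs, ?_⟩
    rw [tl_cv3, tl_zx]; exact hp
  set Ω : Set (Cm 2 × ℂ) := ball p₀ R ×ˢ ball 0 R with hΩ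
  have hΩo : IsOpen Ω := isOpen_ball.prod isOpen_ball
  have hΩc : Convex ℝ Ω := (convex_ball p₀ R).prod (convex_ball 0 R)
  have hΩn : Ω.Nonempty := ⟨(p₀, 0), mem_ball_self hR, mem_ball_self hR⟩
  obtain ⟨e, h, z₁, x₁, hh, ⟨q₁, hq₁, hq₁z⟩, hx₁, hx₁i, hmax⟩ :=
    exists_max_sep hc hζ (B := (fun q => b (cv3 q)) '' Ω)
      (by rintro _ ⟨q, hq, rfl⟩; exact hbr _ (hcv q hq)) (hΩn.image _)
  have hhc : ∀ x ∈ V, ContinuousAt h x := fun x hx => hol_continuousAt (hh x hx)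
  obtain ⟨P, hP1, hP2, hP3⟩ := hc.sym h hh
  have hbc : DifferentiableOn ℂ (fun q => b (cv3 q)) Ω := by
    intro q hq
    exact ((hb _ (hcv q hq)).differentiableAt.comp q (differentiable_cv3 q)).differentiableWithinAt
  have hPF : PFam Ω d (fun q => P (b (cv3 q))) := by
    refine ⟨fun q hq => (hP1 _ (hbr _ (hcv q hq))).1, fun q hq => (hP1 _ (hbr _ (hcv q hq))).2.1,
      fun i q hq => ?_⟩
    exact (((hP1 _ (hbr _ (hcv q hq))).2.2 i).differentiableAt.comp_differentiableWithinAt q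
      (hbc q hq))
  obtain ⟨k, D, Rp, hD, hDne, hRF, hRD⟩ := exists_reduced hΩo hΩc.isPreconnected hΩn hPF
  have hroots : ∀ q ∈ Ω, D q ≠ 0 → ∀ z, (Rp q).eval z = 0 ↔ ∃ x ∈ V, G x = b (cv3 q) ∧ h x = z := by
    intro q hq hDq z
    rw [(hRD q hq hDq).2 z]
    constructor
    · intro hz
      exact root_sym hc hhc hP1 hP3 (hbr _ (hcv q hq)) hz
    · rintro ⟨x, hx, hxb, rfl⟩
      rw [← hxb]
      exact hP2 x hx
  obtain ⟨α, hα⟩ := exists_alpha hRF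
  have hαi : ∀ q ∈ Ω, D q ≠ 0 → Function.Injective (α q) := fun q hq hDq =>
    inj_of_simple (hα q hq) (hRD q hq hDq).1
  -- the number of roots
  have hek : e ≤ k := by
    obtain ⟨δ, hδ, hδ'⟩ : ∃ δ > 0, ∀ i j, i ≠ j → 2 * δ < ‖h (x₁ i) - h (x₁ j)‖ := by
      have h1 : ∀ᶠ δ : ℝ in 𝓝[>] 0, ∀ i j, i ≠ j → 2 * δ < ‖h (x₁ i) - h (x₁ j)‖ := by
        refine eventually_all.2 fun i => eventually_all.2 fun j => ?_
        by_cases hij : i = j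
        · exact Eventually.of_forall fun δ h => (h hij).elim
        have h2 : 0 < ‖h (x₁ i) - h (x₁ j)‖ :=
          norm_pos_iff.2 (sub_ne_zero.2 fun h3 => hij (hx₁i h3))
        filter_upwards [Ioo_mem_nhdsGT (half_pos h2)] with δ hδ _
        linarith [hδ.2]
      obtain ⟨δ, h2, h3⟩ := (h1.and self_mem_nhdsWithin).exists
      exact ⟨δ, h3, h2⟩
    have hgo : ∀ i, ∀ᶠ q in 𝓝 q₁, ∃ x ∈ V, ‖h x - h (x₁ i)‖ < δ ∧ G x = b (cv3 q) := by
      intro i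
      have h1 : {x | x ∈ V ∧ ‖h x - h (x₁ i)‖ < δ} ∈ 𝓝 (x₁ i) := by
        refine inter_mem (hc.isOpen.mem_nhds (hx₁ i).1) ?_
        have h2 : ContinuousAt (fun x => ‖h x - h (x₁ i)‖) (x₁ i) :=
          ((hhc _ (hx₁ i).1).sub continuousAt_const).norm
        exact h2.eventually_lt_const (by simpa using hδ)
      obtain ⟨N, hN, hNo, hxN⟩ := _root_.mem_nhds_iff.1 h1
      have h2 : IsOpen (G '' N) := hc.openMap N (fun x hx => (hN hx).1) hNo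
      have h3 : ContinuousAt (fun q => b (cv3 q)) q₁ :=
        (hbc.continuousOn.continuousAt (hΩo.mem_nhds hq₁))
      have h4 : ∀ᶠ q in 𝓝 q₁, b (cv3 q) ∈ G '' N := by
        refine h3.eventually (h2.mem_nhds ?_)
        exact ⟨x₁ i, hxN, by rw [(hx₁ i).2]; exact hq₁z.symm⟩
      filter_upwards [h4] with q hq
      obtain ⟨x, hx, hxb⟩ := hq
      exact ⟨x, (hN hx).1, (hN hx).2, hxb⟩
    have hfr := frequently_ne hΩo hΩc.isPreconnected hD hDne q₁ hq₁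
    obtain ⟨q, hDq, hq, hqΩ⟩ := (hfr.and_eventually ((eventually_all.2 hgo).and
      (hΩo.mem_nhds hq₁))).exists
    choose y hyV hyδ hyb using hq
    have h1 : ∀ i, ∃ j, α q j = h (y i) := by
      intro i
      have h2 : (Rp q).eval (h (y i)) = 0 := (hroots q hqΩ hDq _).2 ⟨y i, hyV i, hyb i, rfl⟩
      rw [hα q hqΩ, eval_prod, Finset.prod_eq_zero_iff] at h2
      obtain ⟨j, -, hj⟩ := h2
      rw [eval_sub, eval_X, eval_C, sub_eq_zero] at hj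
      exact ⟨j, hj.symm⟩
    choose f hf using h1
    have hfi : Function.Injective f := by
      intro i i' hii
      by_contra hne
      have h2 : h (y i) = h (y i') := by rw [← hf i, ← hf i', hii]
      have h3 := hδ' i i' hne
      have h4 : ‖h (x₁ i) - h (x₁ i')‖ ≤ ‖h (y i) - h (x₁ i)‖ + ‖h (y i') - h (x₁ i')‖ := by
        have h5 : h (x₁ i) - h (x₁ i') = -(h (y i) - h (x₁ i)) + (h (y i') - h (x₁ i')) := by
          rw [h2]; ring
        rw [h5]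
        refine (norm_add_le _ _).trans ?_
        rw [norm_neg]
      linarith [hyδ i, hyδ i']
    simpa using Fintype.card_le_of_injective f hfi
  refine ⟨k, h, D, Rp, hh, hD, hDne, hRF, fun q hq hDq => ⟨(hRD q hq hDq).1, hroots q hq hDq, ?_⟩⟩
  -- injectivity
  have hfin := (hc.finite (b (cv3 q)) (hbr _ (hcv q hq))).1
  set F := hfin.toFinset with hF
  have hFm : ∀ x, x ∈ F ↔ x ∈ V ∧ G x = b (cv3 q) := fun x => hfin.mem_toFinset
  have h1 : F.card ≤ e := hmax _ ⟨q, hq, rfl⟩ F fun x hx => (hFm x).1 hx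
  have h2 : Finset.univ.image (α q) ⊆ F.image h := by
    intro z hz
    obtain ⟨i, -, rfl⟩ := Finset.mem_image.1 hz
    have h3 : (Rp q).eval (α q i) = 0 := by
      rw [hα q hq, eval_prod]
      exact Finset.prod_eq_zero (Finset.mem_univ i) (by simp)
    obtain ⟨x, hx, hxb, hxz⟩ := (hroots q hq hDq _).1 h3
    exact Finset.mem_image.2 ⟨x, (hFm x).2 ⟨hx, hxb⟩, hxz⟩
  have h3 : (Finset.univ.image (α q)).card = k := by
    rw [Finset.card_image_of_injective _ (hαi q hq hDq)]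
    simp
  have h4 : (F.image h).card = F.card :=
    le_antisymm Finset.card_image_le ((h1.trans hek).trans (h3 ▸ Finset.card_le_card h2))
  have h5 := Finset.card_image_iff.1 h4
  intro x hx y hy hxy
  exact h5 ((hFm x).2 hx) ((hFm y).2 hy) hxy

theorem cv3_mem {p₀ : Cm 2} {R : ℝ} (hR : 0 < R) {q : Cm 2 × ℂ}
    (hq : q ∈ ball p₀ R ×ˢ ball (0 : ℂ) R) : cv3 q ∈ ball (zx p₀) R := by
  rw [mem_ball_iff rfl hR]
  refine ⟨by simpa [cv3] using hq.2, ?_⟩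
  rw [tl_cv3, tl_zx]; exact hq.1

/-- (E2) at a point where the discriminant is a power of the first coordinate -/
theorem liftFib_of (hc : IsCov XX V G c r d lam θ) {nζ : ℕ} {ζ : Fin nζ → XX.pt → ℂ}
    (hζ : IsCoord XX V ζ) {b : Cm 3 → Cm 4} {p₂ : Cm 2} {A : ℝ} (hA : 0 < A)
    (hb : ∀ w ∈ ball (zx p₂) A, AnalyticAt ℂ b w) (hbr : ∀ w ∈ ball (zx p₂) A, b w ∈ ball c r)
    {k : ℕ} {h : XX.pt → ℂ} (hh : ∀ x ∈ V, XX.Hol h x) {Rp : Cm 2 × ℂ → ℂ[X]}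
    (hRF : PFam (ball p₂ A ×ˢ ball 0 A) k Rp)
    (hRs : ∀ q ∈ ball p₂ A ×ˢ ball (0 : ℂ) A, q.2 ≠ 0 →
      (∀ z, (Rp q).eval z = 0 → (derivative (Rp q)).eval z ≠ 0) ∧
        (∀ z, (Rp q).eval z = 0 ↔ ∃ x ∈ V, G x = b (cv3 q) ∧ h x = z) ∧
        InjOn h {x | x ∈ V ∧ G x = b (cv3 q)}) : LiftFib XX V G b (zx p₂) := by
  obtain ⟨N, s, η, hN0, hs, hη1, hη2, hη3⟩ :=
    roots_puiseux (isOpen_ball (x := p₂) (ε := A)) (convex_ball _ _) hA hRF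
      (fun q hq => (hRs q hq.1 hq.2).1)
  have hm : Differentiable ℂ fun w : Cm 3 => ((tl w, w 0) : Cm 2 × ℂ) :=
    differentiable_tl.prodMk (differentiable_apply 0)
  set T : Fin k → Set (Cm 3) := fun j => {w | (tl w, w 0) ∈ ball p₂ A ×ˢ powBall (s j) A} with hT
  have hTo : ∀ j, IsOpen (T j) := fun j =>
    (isOpen_ball.prod (isOpen_powBall _ A)).preimage hm.continuous
  set β : Fin k → Cm 3 → Cm 2 × ℂ := fun j w => (tl w, w 0 ^ s j) with hβ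
  have hβd : ∀ j, Differentiable ℂ (β j) := fun j =>
    differentiable_tl.prodMk ((differentiable_apply 0).pow (s j))
  have hβT : ∀ j, ∀ w ∈ T j, β j w ∈ ball p₂ A ×ˢ ball (0 : ℂ) A := fun j w hw =>
    ⟨hw.1, pow_mem_ball hw.2⟩
  have hbβ : ∀ j, ∀ w ∈ T j, AnalyticAt ℂ (fun w => b (cv3 (β j w))) w := by
    intro j w hw
    have h1 : AnalyticAt ℂ (fun w => cv3 (β j w)) w :=
      P268.analyticAt_of_differentiableOn isOpen_univ
        (differentiable_cv3.comp (hβd j)).differentiableOn (mem_univ _)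
    exact AnalyticAt.fun_comp (g := b) (f := fun w => cv3 (β j w)) (hb _ (cv3_mem hA (hβT j w hw))) h1
  have hbβr : ∀ j, ∀ w ∈ T j, b (cv3 (β j w)) ∈ ball c r := fun j w hw =>
    hbr _ (cv3_mem hA (hβT j w hw))
  have hT'o : ∀ j, IsOpen {w | w ∈ T j ∧ w 0 ≠ 0} := fun j =>
    (hTo j).inter (isOpen_ne_fun (continuous_apply 0) continuous_const)
  have hψ : ∀ j, ∃ ψ : Cm 3 → XX.pt, ∀ w ∈ {w | w ∈ T j ∧ w 0 ≠ 0}, HolAt XX ψ w ∧ ψ w ∈ V ∧
      G (ψ w) = b (cv3 (β j w)) ∧ h (ψ w) = η j (tl w, w 0) := by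
    intro j
    have hroot : ∀ w ∈ {w | w ∈ T j ∧ w 0 ≠ 0}, (Rp (β j w)).eval (η j (tl w, w 0)) = 0 :=
      fun w hw => hη2 j _ hw.1
    refine lift_root hc hζ hh (hT'o j) (fun w hw => hbβ j w hw.1) (fun w hw => hbβr j w hw.1)
      (R := fun w => Rp (β j w)) (e := k) (fun i w hw => ?_) (fun w hw => ?_) (fun w hw x hx hxb => ?_)
      (fun w hw => ?_) (fun w hw => ?_) (fun w hw => ?_) (fun w hw => ?_)
    · have h1 : DifferentiableOn ℂ (fun w => (Rp (β j w)).coeff i) (T j) :=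
        (hRF.hol i).comp (hβd j).differentiableOn fun w hw => hβT j w hw
      exact P268.analyticAt_of_differentiableOn (hTo j) h1 hw.1
    · exact (hRF.deg _ (hβT j w hw.1)).le
    · exact ((hRs _ (hβT j w hw.1) (pow_ne_zero _ hw.2)).2.1 _).2 ⟨x, hx, hxb, rfl⟩
    · exact (hRs _ (hβT j w hw.1) (pow_ne_zero _ hw.2)).2.2
    · have h1 : DifferentiableOn ℂ (fun w => η j (tl w, w 0)) (T j) :=
        (hη1 j).comp hm.differentiableOn fun w hw => hw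
      exact P268.analyticAt_of_differentiableOn (hTo j) h1 hw.1
    · exact ((hRs _ (hβT j w hw.1) (pow_ne_zero _ hw.2)).2.1 _).1 (hroot w hw)
    · exact (hRs _ (hβT j w hw.1) (pow_ne_zero _ hw.2)).1 _ (hroot w hw)
  choose ψ hψ using hψ
  have hΨ : ∀ j, ∃ Ψ : Cm 3 → XX.pt, (∀ w ∈ T j, HolAt XX Ψ w ∧ Ψ w ∈ V ∧
      G (Ψ w) = b (cv3 (β j w))) ∧ ∀ w ∈ T j, w 0 ≠ 0 → Ψ w = ψ j w := fun j =>
    hc.extend (n := 2) (hTo j) (fun w hw => (hbβ j w hw).continuousAt) (hbβr j)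
      fun w hw hw0 => ⟨(hψ j w ⟨hw, hw0⟩).1, (hψ j w ⟨hw, hw0⟩).2.1, (hψ j w ⟨hw, hw0⟩).2.2.1⟩
  choose Ψ hΨ1 hΨ2 using hΨ
  -- the radius
  set ρ : ℝ := min A 1 with hρ
  have hρ0 : 0 < ρ := lt_min hA one_pos
  have hρA : ρ ≤ A := min_le_left _ _
  have hρ1 : ρ ≤ 1 := min_le_right _ _
  have hTb : ∀ j, ∀ w ∈ ball (zx p₂) ρ, w ∈ T j := by
    intro j w hw
    rw [mem_ball_iff rfl hρ0, tl_zx] at hw
    refine ⟨ball_subset_ball hρA hw.2, ?_⟩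
    change ‖w 0‖ ^ s j < A
    refine lt_of_le_of_lt ?_ (hw.1.trans_le hρA)
    exact pow_le_of_le_one (norm_nonneg _) (hw.1.le.trans hρ1) (by have := (hs j).1; omega)
  refine ⟨k, ρ, s, Ψ, hρ0, fun j => (hs j).1, fun j w hw => ?_, fun w₁ hw₁ h0 ε hε => ?_⟩
  · have h1 := hΨ1 j w (hTb j w hw)
    refine ⟨h1.1, h1.2.1, ?_⟩
    rw [h1.2.2, ← cv3_tl]
  · set ε₁ : ℝ := min ε 1 with hε₁
    have hε₁0 : 0 < ε₁ := lt_min hε one_pos
    have e1 : ∀ᶠ w in 𝓝 w₁, ‖w 0‖ < ε₁ ^ k := by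
      have h1 : ContinuousAt (fun w : Cm 3 => ‖w 0‖) w₁ :=
        (continuous_apply (0 : Fin 3)).norm.continuousAt
      refine h1.eventually_lt_const ?_
      show ‖w₁ 0‖ < _
      rw [h0, norm_zero]
      exact pow_pos hε₁0 k
    filter_upwards [e1, isOpen_ball.mem_nhds hw₁, ball_mem_nhds w₁ hε] with w hw1 hw2 hw3 hw0 x hx hxb
    have hw2' := (mem_ball_iff rfl hρ0).1 hw2
    rw [tl_zx] at hw2'
    have hq : (tl w, w 0) ∈ ball p₂ A ×ˢ ball (0 : ℂ) A :=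
      ⟨ball_subset_ball hρA hw2'.2, by simpa using hw2'.1.trans_le hρA⟩
    obtain ⟨a, ha⟩ := IsAlgClosed.exists_pow_nat_eq (w 0) (Nat.pos_of_ne_zero hN0)
    have ha0 : a ≠ 0 := by
      rintro rfl
      rw [zero_pow hN0] at ha
      exact hw0 ha.symm
    have haN : a ∈ powBall N A := by
      change ‖a‖ ^ N < A
      rw [← norm_pow, ha]
      exact hw2'.1.trans_le hρA
    have hdiv : ∀ j, (a ^ (N / s j)) ^ s j = w 0 := by
      intro j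
      rw [← pow_mul, Nat.div_mul_cancel (hs j).2.2, ha]
    have hmem : ∀ j, a ^ (N / s j) ∈ powBall (s j) A := by
      intro j
      change ‖a ^ (N / s j)‖ ^ s j < A
      rw [← norm_pow, hdiv]
      exact hw2'.1.trans_le hρA
    have hRr : ∀ j, (Rp (tl w, w 0)).eval (η j (tl w, a ^ (N / s j))) = 0 := by
      intro j
      have := hη2 j (tl w, a ^ (N / s j)) ⟨hq.1, hmem j⟩
      simp only [hdiv] at this
      exact this
    have hprod := hRF.eq_prod hq (hη3 _ hq.1 a haN ha0) hRr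
    obtain ⟨-, hR2, hR3⟩ := hRs _ hq hw0
    rw [cv3_tl'] at hR2 hR3
    have hRt : (Rp (tl w, w 0)).eval (h x) = 0 := (hR2 _).2 ⟨x, hx, hxb, rfl⟩
    rw [hprod, eval_prod, Finset.prod_eq_zero_iff] at hRt
    obtain ⟨j, -, hj⟩ := hRt
    simp only [eval_sub, eval_X, eval_C, sub_eq_zero] at hj
    set u : Cm 3 := ![a ^ (N / s j), w 1, w 2] with hu
    have hutl : tl u = tl w := rfl
    have hu0 : u 0 = a ^ (N / s j) := rfl
    have huT : u ∈ T j := ⟨by rw [hutl]; exact hq.1, by rw [hu0]; exact hmem j⟩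
    have hu0' : u 0 ≠ 0 := by rw [hu0]; exact pow_ne_zero _ ha0
    have hβu : cv3 (β j u) = w := by
      show cv3 (tl u, u 0 ^ s j) = w
      rw [hutl, hu0, hdiv j, cv3_tl']
    have h1 := hψ j u ⟨huT, hu0'⟩
    rw [hβu] at h1
    refine ⟨j, u, ?_, ?_, ?_⟩
    · have hw₁' : w₁ = ![0, w₁ 1, w₁ 2] := by
        funext i; fin_cases i
        · exact h0
        · rfl
        · rfl
      rw [mem_ball_iff h0 hε]
      rw [mem_ball_iff h0 hε] at hw3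
      refine ⟨?_, by rw [hutl]; exact hw3.2⟩
      rw [hu0]
      by_contra hcon
      push Not at hcon
      have h4 : ε₁ ≤ ‖a ^ (N / s j)‖ := (min_le_left _ _).trans hcon
      have h5 : ε₁ ^ s j ≤ ‖a ^ (N / s j)‖ ^ s j := pow_le_pow_left₀ hε₁0.le h4 _
      rw [← norm_pow, hdiv] at h5
      have h6 : ε₁ ^ k ≤ ε₁ ^ s j := pow_le_pow_of_le_one hε₁0.le (min_le_right _ _) (hs j).2.1
      linarith
    · rw [hΨ2 j u huT hu0']
      refine hR3 ⟨h1.2.1, h1.2.2.1⟩ ⟨hx, hxb⟩ ?_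
      rw [h1.2.2.2, hutl, hu0, ← hj]
    · rw [hu0, hdiv j]
      funext i
      fin_cases i <;> rfl

/-- (E2) -/
theorem liftFib_thin (hc : IsCov XX V G c r d lam θ) {nζ : ℕ} {ζ : Fin nζ → XX.pt → ℂ}
    (hζ : IsCoord XX V ζ) {b : Cm 3 → Cm 4} {p₀ : Cm 2} {R : ℝ} (hR : 0 < R)
    (hb : ∀ w ∈ ball (zx p₀) R, AnalyticAt ℂ b w) (hbr : ∀ w ∈ ball (zx p₀) R, b w ∈ ball c r) :
    Cv 1 {p | p ∈ ball p₀ R ∧ ¬ LiftFib XX V G b (zx p)} := by
  obtain ⟨k, h, Dd, Rp, hh, hDd, ⟨⟨x₀, s₀⟩, hxs, hDne⟩, hRF, hRD⟩ := exists_sepPoly hc hζ hR hb hbr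
  set Ω : Set (Cm 2 × ℂ) := ball p₀ R ×ˢ ball 0 R with hΩ
  have hΩo : IsOpen Ω := isOpen_ball.prod isOpen_ball
  -- division by the second variable
  have hline : AnalyticOnNhd ℂ (fun s : ℂ => Dd (x₀, s)) (ball 0 R) := by
    intro s hs
    have h1 : AnalyticAt ℂ Dd (x₀, s) := P268.analyticAt_of_differentiableOn hΩo hDd ⟨hxs.1, hs⟩
    exact h1.comp_of_eq (analyticAt_const.prod analyticAt_id) rfl
  have hne0 : ∀ᶠ s in 𝓝[≠] (0 : ℂ), Dd (x₀, s) ≠ 0 := by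
    rcases (hline 0 (mem_ball_self hR)).eventually_eq_zero_or_eventually_ne_zero with h0 | h0
    · exact absurd (hline.eqOn_zero_of_preconnected_of_eventuallyEq_zero
        (convex_ball _ _).isPreconnected (mem_ball_self hR) h0 hxs.2) hDne
    · exact h0
  obtain ⟨p, g, hg, hDg, ⟨x₁, s₁⟩, hx₁, hs₁, hgne⟩ :=
    div_snd_max hΩo hDd (x₀ := x₀) ⟨hxs.1, mem_ball_self hR⟩ hne0
  simp only at hs₁
  subst hs₁
  have hga : ∀ c ∈ ball p₀ R, AnalyticAt ℂ (fun c => g (c, 0)) c := by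
    intro c hc
    have h1 : AnalyticAt ℂ g (c, 0) :=
      P268.analyticAt_of_differentiableOn hΩo hg ⟨hc, mem_ball_self hR⟩
    exact h1.comp_of_eq (analyticAt_id.prod analyticAt_const) rfl
  have hgz : ∀ c ∈ ball p₀ R, ¬ (fun c => g (c, 0)) =ᶠ[𝓝 c] 0 := by
    intro c hc h0
    have h1 : AnalyticOnNhd ℂ (fun c => g (c, 0)) (ball p₀ R) := hga
    exact hgne (h1.eqOn_zero_of_preconnected_of_eventuallyEq_zero
      (convex_ball _ _).isPreconnected hc h0 hx₁.1)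
  obtain ⟨W, Gg, hW, hG, hWG⟩ := H622.stB1 1 (ball p₀ R) (fun c => g (c, 0)) isOpen_ball hga hgz
  refine ⟨W, Gg, hW, fun k p hp => (hG k p hp).1, ?_⟩
  refine Subset.trans ?_ hWG
  rintro c₂ ⟨hc₂, hbad⟩
  refine ⟨hc₂, ?_⟩
  by_contra hgc
  apply hbad
  -- a good point
  have hnear : ∀ᶠ q : Cm 2 × ℂ in 𝓝 (c₂, 0), q ∈ Ω ∧ g q ≠ 0 := by
    have hmem : (c₂, (0 : ℂ)) ∈ Ω := ⟨hc₂, mem_ball_self hR⟩
    exact (hΩo.eventually_mem hmem).and
      ((hg.continuousOn.continuousAt (hΩo.mem_nhds hmem)).eventually_ne hgc)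
  obtain ⟨A₂, hA₂, hb₂⟩ := Metric.eventually_nhds_iff_ball.1 hnear
  have hsub : ball c₂ A₂ ×ˢ ball (0 : ℂ) A₂ ⊆ ball (c₂, 0) A₂ := by
    rintro ⟨c, s⟩ ⟨h1, h2⟩
    rw [mem_ball, Prod.dist_eq, max_lt_iff]
    exact ⟨h1, h2⟩
  have hsubV : ball c₂ A₂ ×ˢ ball (0 : ℂ) A₂ ⊆ Ω := fun q hq => (hb₂ q (hsub hq)).1
  have hDne' : ∀ q ∈ ball c₂ A₂ ×ˢ ball (0 : ℂ) A₂, q.2 ≠ 0 → Dd q ≠ 0 := by
    intro q hq hq0
    rw [hDg q (hsubV hq)]
    exact mul_ne_zero (pow_ne_zero _ hq0) (hb₂ q (hsub hq)).2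
  have hball : ball (zx c₂) A₂ ⊆ ball (zx p₀) R := by
    intro w hw
    have h1 := (mem_ball_iff rfl hA₂).1 hw
    rw [tl_zx] at h1
    have h2 : (tl w, w 0) ∈ Ω := hsubV ⟨h1.2, by simpa using h1.1⟩
    have h3 := cv3_mem hR h2
    rwa [cv3_tl'] at h3
  exact liftFib_of hc hζ hA₂ (fun w hw => hb w (hball hw)) (fun w hw => hbr w (hball hw)) hh
    (hRF.mono hsubV) fun q hq hq0 => hRD q (hsubV hq) (hDne' q hq hq0)

end Vale.Agent.P277.H371.X
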