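import Vale.Agent.P277.H371.X.Fibre
import Vale.Agent.P277.H615.X.Iface

/-!
# P277, EXS: (E2)
-/

open Set Filter Metric Topology
open Vale.Agent.P272.K
open Vale.Agent.P277.H762 (Cv)

noncomputable section

namespace Vale.Agent.P277.H371.X

open Vale.Agent.P277 Vale.Agent.P277.TX Vale.Agent.P277.H884.PL
open Vale.Agent.P277.H60.X (zx dist_zx)

/-- (E2) -/
theorem stLiftFib : H615.X.StLiftFib := by
  intro X V G z₀ r d lam θ hc N ζ hζ b hb0 R c hcb
  have hb : b = zx (tl b) := by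
    funext i; fin_cases i
    · exact hb0
    · rfl
    · rfl
  rcases le_or_gt R 0 with hR | hR
  · have : {p : Cm 2 | zx p ∈ ball b R ∧ ¬ ∃ (ρ : ℝ) (e : ℕ) (q : Fin e → ℕ)
        (Gam : Fin e → Cm 3 → X.pt), H615.X.LiftFib X V G c p ρ e q Gam} = ∅ := by
      ext p
      simp only [mem_setOf_eq, mem_empty_iff_false, iff_false, not_and]
      intro h
      rw [ball_eq_empty.2 hR] at h
      exact h.elim
    rw [this]
    exact ⟨fun _ => ∅, fun _ _ => 0, fun _ => isOpen_empty, fun _ _ h => h.elim, by simp⟩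
  rw [hb] at hcb
  have key := liftFib_thin hc hζ (p₀ := tl b) hR (fun w hw => (hcb w hw).1) fun w hw => (hcb w hw).2
  refine key.mono ?_
  rintro p ⟨hp, hbad⟩
  refine ⟨?_, fun hgood => hbad ?_⟩
  · rw [hb, mem_ball, dist_zx] at hp
    exact hp
  obtain ⟨e, ρ, s, Γ, hρ, hs, h1, h2⟩ := hgood
  refine ⟨ρ, e, s, Γ, hρ, hs, h1, ?_⟩
  obtain ⟨δ, hδ, h3⟩ := Metric.eventually_nhds_iff_ball.1 (h2 (zx p) (mem_ball_self hρ) rfl ρ hρ)
  refine ⟨δ, hδ, fun w hw hw0 x hx hxc => ?_⟩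
  obtain ⟨j, u, hu, hux, huw⟩ := h3 w hw hw0 x hx hxc
  exact ⟨j, u, hu, congrFun huw 0, congrFun huw 1, congrFun huw 2, hux⟩

end Vale.Agent.P277.H371.X
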