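import Vale.Agent.P277.H884.S.Dual
import Vale.Agent.P277.H335.COV4
import Vale.Agent.P277.H884.CovLift
import Vale.Agent.P277.H884.Min2

/-!
# P277, EXS: traces at arbitrary points of a branched covering, lifts along simple roots
-/

open scoped Manifold ContDiff Topology
open Vale.Agent.P272.K Vale.Agent.P285.H281.FD Set Filter Metric

noncomputable section

namespace Vale.Agent.P277.H371.X

open Vale.Agent.P277 Vale.Agent.P277.TX

variable {X : CSp} {V : Set X.pt} {G : X.pt → Cm 4} {c : Cm 4} {r : ℝ} {d : ℕ}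
  {lam : X.pt → ℂ} {θ : Cm 4 → ℂ}

/-- traces at arbitrary points -/
theorem exists_wt (hc : IsCov X V G c r d lam θ) {z : Cm 4} (hz : z ∈ ball c r) :
    ∃ (m : ℕ) (p : Fin m → X.pt) (μ : Fin m → ℕ), Function.Injective p ∧
      (∀ y, (∃ k, p k = y) ↔ y ∈ V ∧ G y = z) ∧ (∀ k, 1 ≤ μ k) ∧ ∑ k, μ k = d ∧
      ∀ (f : X.pt → ℂ) (t : Cm 4 → ℂ), (∀ x ∈ V, ContinuousAt f x) → ContinuousAt t z →
        (∀ z' ∈ ball c r, θ z' ≠ 0 → ∀ x : Fin d → X.pt, Enum V G z' x → t z' = ∑ k, f (x k)) →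
        t z = ∑ k, (μ k : ℂ) * f (p k) := by
  classical
  obtain ⟨m, p, hpi, hp⟩ := H335.exists_enum (hc.finite z hz).1
  obtain ⟨r', V', d', hr', hball, hV', hdis, hcov, hsum⟩ := H335.stCovLoc X V G c r d lam θ hc z hz m
    p hpi hp (fun _ => univ) fun _ => univ_mem
  refine ⟨m, p, d', hpi, hp, fun k => (hV' k).1.dpos, hsum, fun f t hf ht htr => ?_⟩
  have hpV : ∀ k, p k ∈ V ∧ G (p k) = z := fun k => (hp (p k)).1 ⟨k, rfl⟩
  refine eq_of_forall_dist_le fun ε hε => ?_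
  set δ : ℝ := ε / (2 * (d + 1)) with hδ
  have hδ0 : 0 < δ := by positivity
  have e1 : ∀ k, ∀ᶠ z' in 𝓝 z, ∀ x ∈ V' k, G x = z' → x ∈ {x | ‖f x - f (p k)‖ < δ} := by
    intro k
    refine (hV' k).1.eventually_mem (mem_ball_self hr') fun x hx hxz => ?_
    rw [(hV' k).2.2.2 x hx hxz]
    have h1 : ContinuousAt (fun x => ‖f x - f (p k)‖) (p k) :=
      ((hf _ (hpV k).1).sub continuousAt_const).norm
    refine h1.eventually_lt_const ?_
    simpa using hδ0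
  have e2 : ∀ᶠ z' in 𝓝 z, dist (t z') (t z) < ε / 2 := Metric.continuousAt_iff'.1 ht _ (by positivity)
  have e3 : ∃ᶠ z' in 𝓝 z, θ z' ≠ 0 := by
    have := hc.ne z hz
    rw [EventuallyEq, not_eventually] at this
    exact this
  obtain ⟨z', hθ, h1, h2, h3⟩ := (e3.and_eventually ((eventually_all.2 e1).and
    (e2.and (ball_mem_nhds z hr')))).exists
  obtain ⟨x, hx⟩ := hc.enum z' (hball h3) hθ
  choose x' hx' using fun k => (hV' k).1.enum z' h3 hθ
  set xx : (Σ k, Fin (d' k)) → X.pt := fun q => x' q.1 q.2 with hxx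
  have hxxi : Function.Injective xx := by
    rintro ⟨k, i⟩ ⟨l, j⟩ hij
    have h4 : x' k i = x' l j := hij
    have hkl : k = l := by
      by_contra hne
      have h5 := ((hx' k).2 (x' k i)).1 ⟨i, rfl⟩
      have h6 := ((hx' l).2 (x' l j)).1 ⟨j, rfl⟩
      exact (disjoint_left.1 (hdis k l hne)) h5.1 (h4 ▸ h6.1)
    subst hkl
    rw [(hx' k).1 h4]
  have hrange : range xx = range x := by
    ext y
    constructor
    · rintro ⟨⟨k, i⟩, rfl⟩
      have h4 := ((hx' k).2 (x' k i)).1 ⟨i, rfl⟩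
      exact (hx.2 _).2 ⟨((hV' k).2.2.1 h4.1).2, h4.2⟩
    · intro hy
      obtain ⟨hyV, hyw⟩ := (hx.2 y).1 hy
      obtain ⟨k, hk⟩ := hcov y hyV (by rw [hyw]; exact h3)
      obtain ⟨i, hi⟩ := ((hx' k).2 y).2 ⟨hk, hyw⟩
      exact ⟨⟨k, i⟩, hi⟩
  have hS : ∑ i, f (x i) = ∑ k, ∑ i, f (x' k i) := by
    rw [← Fintype.sum_sigma' (f := fun k i => f (x' k i)), ← finsum_eq_sum_of_fintype,
      ← finsum_eq_sum_of_fintype, ← finsum_mem_range (f := f) hx.1, ← hrange,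
      finsum_mem_range (f := f) hxxi]
  have h4 : dist (t z') (∑ k, (d' k : ℂ) * f (p k)) ≤ ε / 2 := by
    rw [htr z' (hball h3) hθ x hx, hS, dist_eq_norm]
    have h5 : ∑ k, ∑ i, f (x' k i) - ∑ k, (d' k : ℂ) * f (p k) =
        ∑ k, ∑ i, (f (x' k i) - f (p k)) := by
      rw [← Finset.sum_sub_distrib]
      refine Finset.sum_congr rfl fun k _ => ?_
      rw [Finset.sum_sub_distrib, Finset.sum_const, Finset.card_univ, Fintype.card_fin,
        nsmul_eq_mul]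
    rw [h5]
    calc ‖∑ k, ∑ i, (f (x' k i) - f (p k))‖ ≤ ∑ k, ‖∑ i, (f (x' k i) - f (p k))‖ :=
          norm_sum_le _ _
      _ ≤ ∑ k, (d' k : ℝ) * δ := by
          refine Finset.sum_le_sum fun k _ => (norm_sum_le _ _).trans ?_
          refine (Finset.sum_le_card_nsmul _ _ δ fun i _ => ?_).trans ?_
          · have h6 := ((hx' k).2 (x' k i)).1 ⟨i, rfl⟩
            exact (h1 k _ h6.1 h6.2).le
          · rw [Finset.card_univ, Fintype.card_fin, nsmul_eq_mul]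
      _ = d * δ := by
          rw [← Finset.sum_mul]
          congr 1
          exact_mod_cast hsum
      _ ≤ ε / 2 := by
          rw [hδ, mul_div_assoc', div_le_div_iff₀ (by positivity) (by positivity)]
          nlinarith
  calc dist (t z) (∑ k, (d' k : ℂ) * f (p k)) ≤ dist (t z) (t z') + dist (t z') _ :=
        dist_triangle _ _ _
    _ ≤ ε / 2 + ε / 2 := add_le_add (by rw [dist_comm]; exact h2.le) h4
    _ = ε := by ring

/-- the roots of the polynomial of `f` are the values on the fibre -/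
theorem root_sym (hc : IsCov X V G c r d lam θ) {f : X.pt → ℂ} (hf : ∀ x ∈ V, ContinuousAt f x)
    {P : Cm 4 → Polynomial ℂ}
    (hP : ∀ z ∈ ball c r, (P z).Monic ∧ (P z).natDegree = d ∧
      ∀ i, AnalyticAt ℂ (fun w => (P w).coeff i) z)
    (hP' : ∀ z ∈ ball c r, θ z ≠ 0 → ∀ x : Fin d → X.pt, Enum V G z x →
      P z = ∏ k, (Polynomial.X - Polynomial.C (f (x k)))) {z : Cm 4} (hz : z ∈ ball c r) {t : ℂ}
    (ht : (P z).eval t = 0) : ∃ x ∈ V, G x = z ∧ f x = t := by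
  classical
  by_contra hcon
  push Not at hcon
  have hF := (hc.finite z hz).1
  obtain ⟨δ, hδ, hδF⟩ : ∃ δ > 0, ∀ x ∈ {x | x ∈ V ∧ G x = z}, δ < ‖t - f x‖ := by
    have h1 : ∀ᶠ δ : ℝ in 𝓝[>] 0, ∀ x ∈ {x | x ∈ V ∧ G x = z}, δ < ‖t - f x‖ := by
      rw [hF.eventually_all]
      intro x hx
      have h2 : 0 < ‖t - f x‖ := norm_pos_iff.2 (sub_ne_zero.2 (Ne.symm (hcon x hx.1 hx.2)))
      filter_upwards [Ioo_mem_nhdsGT h2] with δ hδ using hδ.2
    obtain ⟨δ, h2, h3⟩ := (h1.and self_mem_nhdsWithin).exists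
    exact ⟨δ, h3, h2⟩
  have e1 : ∀ᶠ z' in 𝓝 z, ∀ x ∈ V, G x = z' → x ∈ {x | δ < ‖t - f x‖} := by
    refine hc.eventually_mem hz fun x hx hxz => ?_
    have h1 : ContinuousAt (fun x => ‖t - f x‖) x := (continuousAt_const.sub (hf x hx)).norm
    exact h1.eventually_const_lt (hδF x ⟨hx, hxz⟩)
  have e2 : ContinuousAt (fun w => (P w).eval t) z := by
    have h1 : ContinuousAt (fun w => ∑ i ∈ Finset.range (d + 1), (P w).coeff i * t ^ i) z :=
      tendsto_finsetSum _ fun i _ => ((((hP _ hz).2.2 i).continuousAt).mul continuousAt_const)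
    refine h1.congr ?_
    filter_upwards [isOpen_ball.mem_nhds hz] with w hw
    rw [Polynomial.eval_eq_sum_range' (n := d + 1)]
    rw [(hP _ hw).2.1]; exact Nat.lt_succ_self d
  have e3 : ∃ᶠ z' in 𝓝 z, θ z' ≠ 0 := by
    have := hc.ne z hz
    rw [EventuallyEq, not_eventually] at this
    exact this
  have e4 : ∀ᶠ w in 𝓝 z, ‖(P w).eval t‖ < δ ^ d := by
    refine e2.norm.eventually_lt_const ?_
    show ‖(P z).eval t‖ < δ ^ d
    rw [ht, norm_zero]
    positivity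
  obtain ⟨z', hθ, h1, h2, h3⟩ := (e3.and_eventually (e1.and
    (e4.and (isOpen_ball.mem_nhds hz)))).exists
  obtain ⟨x, hx⟩ := hc.enum z' h3 hθ
  rw [hP' z' h3 hθ x hx, Polynomial.eval_prod, norm_prod] at h2
  refine absurd h2 (not_lt.2 ?_)
  have h4 : ∏ _k : Fin d, δ ≤ ∏ k, ‖(Polynomial.X - Polynomial.C (f (x k))).eval t‖ := by
    refine Finset.prod_le_prod (fun _ _ => hδ.le) fun k _ => ?_
    have h5 := (hx.2 (x k)).1 ⟨k, rfl⟩
    rw [Polynomial.eval_sub, Polynomial.eval_X, Polynomial.eval_C]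
    exact (h1 _ h5.1 h5.2).le
  rwa [Finset.prod_const, Finset.card_univ, Fintype.card_fin] at h4

open Polynomial in
/-- lifts along a simple root -/
theorem lift_root (hc : IsCov X V G c r d lam θ) {nζ : ℕ} {ζ : Fin nζ → X.pt → ℂ}
    (hζ : IsCoord X V ζ) {h : X.pt → ℂ} (hh : ∀ x ∈ V, X.Hol h x) {n : ℕ} {T : Set (Cm n)}
    (hT : IsOpen T) {b : Cm n → Cm 4} (hb : ∀ w ∈ T, AnalyticAt ℂ b w)
    (hbr : ∀ w ∈ T, b w ∈ ball c r) {R : Cm n → ℂ[X]} {e : ℕ}
    (hRa : ∀ i, ∀ w ∈ T, AnalyticAt ℂ (fun w => (R w).coeff i) w)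
    (hRd : ∀ w ∈ T, (R w).natDegree ≤ e)
    (hR : ∀ w ∈ T, ∀ x ∈ V, G x = b w → (R w).eval (h x) = 0)
    (hinj : ∀ w ∈ T, InjOn h {x | x ∈ V ∧ G x = b w}) {η : Cm n → ℂ}
    (hη : ∀ w ∈ T, AnalyticAt ℂ η w) (hηx : ∀ w ∈ T, ∃ x ∈ V, G x = b w ∧ h x = η w)
    (hs : ∀ w ∈ T, (derivative (R w)).eval (η w) ≠ 0) :
    ∃ ψ : Cm n → X.pt, ∀ w ∈ T, HolAt X ψ w ∧ ψ w ∈ V ∧ G (ψ w) = b w ∧ h (ψ w) = η w := by
  classical
  obtain ⟨x₀, hx₀⟩ := (hc.finite c (mem_ball_self hc.pos)).2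
  have : Nonempty X.pt := ⟨x₀⟩
  choose! ψ hψV hψG hψh using hηx
  refine ⟨ψ, fun w hw => ⟨?_, hψV w hw, hψG w hw, hψh w hw⟩⟩
  -- the quotient polynomial
  set Q : Cm n → ℂ[X] := fun w => R w /ₘ (Polynomial.X - C (η w)) with hQ
  have hroot : ∀ w ∈ T, (R w).eval (η w) = 0 := fun w hw => by
    rw [← hψh w hw]; exact hR w hw _ (hψV w hw) (hψG w hw)
  have hmul : ∀ w ∈ T, (Polynomial.X - C (η w)) * Q w = R w := fun w hw =>
    mul_divByMonic_eq_iff_isRoot.2 (hroot w hw)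
  have hQη : ∀ w ∈ T, (Q w).eval (η w) ≠ 0 := by
    intro w hw h0
    apply hs w hw
    rw [← hmul w hw, derivative_mul, eval_add, eval_mul, eval_mul, h0]
    simp
  have hQ0 : ∀ w ∈ T, ∀ x ∈ V, G x = b w → x ≠ ψ w → (Q w).eval (h x) = 0 := by
    intro w hw x hx hxb hne
    have h1 := hR w hw x hx hxb
    rw [← hmul w hw, eval_mul, mul_eq_zero] at h1
    refine h1.resolve_left fun h2 => hne ?_
    rw [eval_sub, eval_X, eval_C, sub_eq_zero] at h2
    exact hinj w hw ⟨hx, hxb⟩ ⟨hψV w hw, hψG w hw⟩ (by rw [h2, hψh w hw])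
  have hQd : ∀ w ∈ T, (Q w).natDegree < e + 1 := by
    intro w hw
    have h1 : (Q w).natDegree ≤ (R w).natDegree := by
      rw [hQ]; show (R w /ₘ (Polynomial.X - C (η w))).natDegree ≤ _
      rw [natDegree_divByMonic _ (monic_X_sub_C _)]
      exact Nat.sub_le _ _
    have := hRd w hw
    omega
  have hQc : ∀ i, ∀ w ∈ T, AnalyticAt ℂ (fun w => (Q w).coeff i) w := by
    intro i w hw
    have h1 : (fun w => (Q w).coeff i) =ᶠ[𝓝 w]
        fun w => ∑ j ∈ Finset.Icc (i + 1) e, η w ^ (j - (i + 1)) * (R w).coeff j := by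
      filter_upwards [hT.mem_nhds hw] with w' hw'
      show (R w' /ₘ (Polynomial.X - C (η w'))).coeff i = _
      rw [coeff_divByMonic_X_sub_C]
      refine Finset.sum_subset (Finset.Icc_subset_Icc_right (hRd w' hw')) fun j hj hj' => ?_
      rw [coeff_eq_zero_of_natDegree_lt, mul_zero]
      rw [Finset.mem_Icc] at hj hj'
      omega
    refine AnalyticAt.congr ?_ h1.symm
    refine Finset.analyticAt_fun_sum _ fun j _ => ((hη w hw).pow _).mul (hRa j w hw)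
  -- traces
  have htr : ∀ f : X.pt → ℂ, (∀ x ∈ V, X.Hol f x) → ∃ t : Cm 4 → ℂ,
      (∀ z ∈ ball c r, AnalyticAt ℂ t z) ∧
      ∀ z ∈ ball c r, θ z ≠ 0 → ∀ x : Fin d → X.pt, Enum V G z x → t z = ∑ k, f (x k) :=
    fun f hf => H884.S.exists_trace hc hf
  have hpow : ∀ (f : X.pt → ℂ) (i : ℕ), (∀ x ∈ V, X.Hol f x) →
      ∀ x ∈ V, X.Hol (fun x => f x * h x ^ i) x := fun f i hf x hx =>
    hol_mul (hf x hx) (by
      induction i with
      | zero => simpa using hol_const _ _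
      | succ k ih =>
        have := hol_mul ih (hh x hx)
        simpa [pow_succ] using this)
  have key : ∀ f : X.pt → ℂ, (∀ x ∈ V, X.Hol f x) → ∃ F : Cm n → ℂ, (∀ w ∈ T, AnalyticAt ℂ F w) ∧
      ∀ w ∈ T, ∀ (m : ℕ) (p : Fin m → X.pt) (μ : Fin m → ℕ),
        (∀ y, (∃ k, p k = y) ↔ y ∈ V ∧ G y = b w) → (∀ (f : X.pt → ℂ) (t : Cm 4 → ℂ),
        (∀ x ∈ V, ContinuousAt f x) → ContinuousAt t (b w) →
        (∀ z' ∈ ball c r, θ z' ≠ 0 → ∀ x : Fin d → X.pt, Enum V G z' x → t z' = ∑ k, f (x k)) →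
        t (b w) = ∑ k, (μ k : ℂ) * f (p k)) → F w = ∑ k, (μ k : ℂ) * (f (p k) * (Q w).eval (h (p k))) := by
    intro f hf
    choose t ht1 ht2 using fun i => htr (fun x => f x * h x ^ i) (hpow f i hf)
    refine ⟨fun w => ∑ i ∈ Finset.range (e + 1), (Q w).coeff i * t i (b w), fun w hw => ?_,
      fun w hw m p μ hp hμ => ?_⟩
    · refine Finset.analyticAt_fun_sum _ fun i _ => (hQc i w hw).mul ?_
      exact (ht1 i _ (hbr w hw)).comp (hb w hw)
    · have h1 : ∀ i, t i (b w) = ∑ k, (μ k : ℂ) * (f (p k) * h (p k) ^ i) := fun i =>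
        hμ (fun x => f x * h x ^ i) (t i) (fun x hx => hol_continuousAt (hpow f i hf x hx))
          (ht1 i _ (hbr w hw)).continuousAt (ht2 i)
      simp only [h1, Finset.mul_sum]
      rw [Finset.sum_comm]
      refine Finset.sum_congr rfl fun k _ => ?_
      rw [eval_eq_sum_range' (hQd w hw), Finset.mul_sum, Finset.mul_sum]
      exact Finset.sum_congr rfl fun i _ => by ring
  have key2 : ∀ f : X.pt → ℂ, (∀ x ∈ V, X.Hol f x) → AnalyticAt ℂ (fun w => f (ψ w)) w := by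
    intro f hf
    obtain ⟨F, hF, hF'⟩ := key f hf
    obtain ⟨F₁, hF₁, hF₁'⟩ := key (fun _ => 1) fun x _ => hol_const _ _
    have h1 : ∀ w ∈ T, F₁ w ≠ 0 ∧ F w = F₁ w * f (ψ w) := by
      intro w hw
      obtain ⟨m, p, μ, hpi, hp, hμ, -, hwt⟩ := exists_wt hc (hbr w hw)
      obtain ⟨k₀, hk₀⟩ := (hp (ψ w)).2 ⟨hψV w hw, hψG w hw⟩
      have h2 : ∀ g : X.pt → ℂ, ∑ k, (μ k : ℂ) * (g (p k) * (Q w).eval (h (p k))) =
          (μ k₀ : ℂ) * (g (ψ w) * (Q w).eval (η w)) := by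
        intro g
        rw [Finset.sum_eq_single k₀]
        · rw [hk₀, hψh w hw]
        · intro k _ hk
          have h3 := (hp (p k)).1 ⟨k, rfl⟩
          rw [hQ0 w hw _ h3.1 h3.2 (fun h4 => hk (hpi (by rw [h4, hk₀]))), mul_zero, mul_zero]
        · intro h3; exact absurd (Finset.mem_univ _) h3
      have h3 : F₁ w = (μ k₀ : ℂ) * (1 * (Q w).eval (η w)) := by
        rw [hF₁' w hw m p μ hp hwt, h2 fun _ => 1]
      have h4 : F w = (μ k₀ : ℂ) * (f (ψ w) * (Q w).eval (η w)) := by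
        rw [hF' w hw m p μ hp hwt, h2 f]
      have h5 : (μ k₀ : ℂ) ≠ 0 := by
        have := hμ k₀
        exact_mod_cast (by omega : μ k₀ ≠ 0)
      refine ⟨?_, by rw [h4, h3]; ring⟩
      rw [h3, one_mul]
      exact mul_ne_zero h5 (hQη w hw)
    have h2 : (fun w => f (ψ w)) =ᶠ[𝓝 w] fun w => F w / F₁ w := by
      filter_upwards [hT.mem_nhds hw] with w' hw'
      obtain ⟨h3, h4⟩ := h1 w' hw'
      rw [h4, mul_div_cancel_left₀ _ h3]
    exact AnalyticAt.congr ((hF w hw).div (hF₁ w hw) (h1 w hw).1) h2.symm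
  refine holAt_of_coord hζ ?_ fun a => key2 (ζ a) fun x hx => hζ.hol a x hx
  filter_upwards [hT.mem_nhds hw] with w' hw' using hψV w' hw'

end Vale.Agent.P277.H371.X
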